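import Vale.Agent.P157.OnePattern

/-!
Hybrid systems and near superadditivity of the expected log partition function.
-/

open MeasureTheory ProbabilityTheory Filter Topology

namespace Vale.Agent.P157

/-- Field of a pattern. -/
noncomputable def fld {n : ℕ} (g : Fin n → ℝ) (σ : Fin n → Bool) : ℝ :=
  (∑ i, g i * sg (σ i)) / √n

/-- Law of `m` patterns. -/
noncomputable def pats (n m : ℕ) : Measure (Fin m → Fin n → ℝ) := Measure.pi fun _ => gs n

instance gs_prob (n : ℕ) : IsProbabilityMeasure (gs n) := by unfold gs; infer_instance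

instance pats_prob (n m : ℕ) : IsProbabilityMeasure (pats n m) := by unfold pats; infer_instance

/-- Expected log partition function. -/
noncomputable def press (f : ℝ → ℝ) (n m : ℕ) : ℝ :=
  ∫ G, Real.log (((2 : ℝ) ^ n)⁻¹ * ∑ σ : Fin n → Bool, Real.exp (∑ i, f (fld (G i) σ))) ∂pats n m

/-- Weight vector of a pattern of the given kind. -/
noncomputable def wv (a b : ℕ) : Option Bool → (Fin (a + b) → Bool) → Fin (a + b) → ℝ
  | none, σ => fun i => sg (σ i) / √((a + b : ℕ) : ℝ)
  | some false, σ => Fin.append (fun i => sg (σ (Fin.castAdd b i)) / √(a : ℝ)) 0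
  | some true, σ => Fin.append 0 (fun j => sg (σ (Fin.natAdd a j)) / √(b : ℝ))

/-- Log partition function of the hybrid system. -/
noncomputable def hval (f : ℝ → ℝ) (a b : ℕ) {M : ℕ} (k : Fin M → Option Bool)
    (G : Fin M → Fin (a + b) → ℝ) : ℝ :=
  Real.log (((2 : ℝ) ^ (a + b))⁻¹ * ∑ σ : Fin (a + b) → Bool,
    Real.exp (∑ i, f (∑ l, G i l * wv a b (k i) σ l)))

/-- Expected log partition function of the hybrid system. -/
noncomputable def hyb (f : ℝ → ℝ) (a b : ℕ) {M : ℕ} (k : Fin M → Option Bool) : ℝ :=
  ∫ G, hval f a b k G ∂pats (a + b) M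

theorem mp_comp {ι κ X : Type*} [Fintype ι] [Fintype κ] [MeasurableSpace X] (μ : Measure X)
    [IsProbabilityMeasure μ] {e : κ → ι} (he : Function.Injective e) :
    MeasurePreserving (fun (g : ι → X) (j : κ) => g (e j))
      (Measure.pi fun _ : ι => μ) (Measure.pi fun _ : κ => μ) := by
  classical
  have hm : Measurable (fun (g : ι → X) (j : κ) => g (e j)) :=
    measurable_pi_lambda _ fun j => measurable_pi_apply (e j)
  refine ⟨hm, (Measure.pi_eq fun s hs => ?_).symm⟩
  rw [Measure.map_apply hm (MeasurableSet.univ_pi hs)]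
  have : (fun (g : ι → X) (j : κ) => g (e j)) ⁻¹' Set.univ.pi s
      = Set.univ.pi (fun i => if h : ∃ j, e j = i then s h.choose else Set.univ) := by
    ext g
    simp only [Set.mem_preimage, Set.mem_univ_pi]
    constructor
    · intro hg i
      split_ifs with h
      · have := hg h.choose; rwa [h.choose_spec] at this
      · exact Set.mem_univ _
    · intro hg j
      have := hg (e j)
      rw [dif_pos ⟨j, rfl⟩] at this
      rwa [he (Exists.choose_spec (⟨j, rfl⟩ : ∃ j', e j' = e j))] at this
  rw [this, Measure.pi_pi]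
  rw [← Finset.prod_subset (Finset.subset_univ ((Finset.univ : Finset κ).image e)) fun i _ hi => by
    rw [dif_neg (fun ⟨j, hj⟩ => hi (Finset.mem_image.2 ⟨j, Finset.mem_univ _, hj⟩)), measure_univ],
    Finset.prod_image he.injOn]
  refine Finset.prod_congr rfl fun j _ => ?_
  rw [dif_pos ⟨j, rfl⟩, he (Exists.choose_spec (⟨j, rfl⟩ : ∃ j', e j' = e j))]

/-- Marginal of some patterns on some coordinates. -/
theorem mp_sub {n n' M m : ℕ} {c : Fin n' → Fin n} (hc : Function.Injective c) {e : Fin m → Fin M}
    (he : Function.Injective e) :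
    MeasurePreserving (fun (G : Fin M → Fin n → ℝ) j i => G (e j) (c i)) (pats n M) (pats n' m) := by
  have h1 : MeasurePreserving (fun (G : Fin M → Fin n → ℝ) j => G (e j)) (pats n M) (pats n m) :=
    mp_comp (gs n) he
  have h2 : MeasurePreserving (fun (G : Fin m → Fin n → ℝ) j i => G j (c i)) (pats n m) (pats n' m) :=
    measurePreserving_pi (fun _ : Fin m => gs n) (fun _ : Fin m => gs n')
      (f := fun _ g i => g (c i)) fun _ => mp_comp (gaussianReal 0 1) hc
  exact h2.comp h1

variable {f : ℝ → ℝ} {B : ℝ}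

theorem abs_log_avg_le {S : Type*} [Fintype S] [Nonempty S] {A C : ℝ} {x : S → ℝ} (hA : 0 < A)
    (hA1 : A * Fintype.card S = 1) (hx : ∀ s, |x s| ≤ C) :
    |Real.log (A * ∑ s, Real.exp (x s))| ≤ C := by
  have h1 : Real.exp (-C) ≤ A * ∑ s, Real.exp (x s) := by
    calc Real.exp (-C) = A * ∑ _s : S, Real.exp (-C) := by simp [← mul_assoc, hA1]
      _ ≤ _ := mul_le_mul_of_nonneg_left
          (Finset.sum_le_sum fun s _ => Real.exp_le_exp.2 (abs_le.1 (hx s)).1) hA.le
  have h2 : A * ∑ s, Real.exp (x s) ≤ Real.exp C := by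
    calc A * ∑ s, Real.exp (x s) ≤ A * ∑ _s : S, Real.exp C := mul_le_mul_of_nonneg_left
          (Finset.sum_le_sum fun s _ => Real.exp_le_exp.2 (abs_le.1 (hx s)).2) hA.le
      _ = _ := by simp [← mul_assoc, hA1]
  have h0 := lt_of_lt_of_le (Real.exp_pos _) h1
  exact abs_le.2 ⟨(Real.le_log_iff_exp_le h0).2 h1, (Real.log_le_iff_le_exp h0).2 h2⟩

theorem card_cfg (n : ℕ) : ((2 : ℝ) ^ n)⁻¹ * Fintype.card (Fin n → Bool) = 1 := by simp

theorem abs_sum_f_le (hB : ∀ x, |f x| ≤ B) {M : ℕ} (x : Fin M → ℝ) : |∑ i, f (x i)| ≤ M * B :=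
  (Finset.abs_sum_le_sum_abs _ _).trans
    ((Finset.sum_le_sum fun i _ => hB (x i)).trans_eq (by simp))

theorem integrable_hval (hfm : Measurable f) (hB : ∀ x, |f x| ≤ B) (a b : ℕ) {M : ℕ}
    (k : Fin M → Option Bool) : Integrable (hval f a b k) (pats (a + b) M) := by
  refine Integrable.of_bound (Measurable.aestronglyMeasurable ?_) (M * B) (ae_of_all _ fun G => ?_)
  · unfold hval; fun_prop
  · rw [Real.norm_eq_abs]
    exact abs_log_avg_le (by positivity) (card_cfg _) fun σ => abs_sum_f_le hB _

theorem integrable_press (hfm : Measurable f) (hB : ∀ x, |f x| ≤ B) (n m : ℕ) :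
    Integrable (fun G : Fin m → Fin n → ℝ =>
      Real.log (((2 : ℝ) ^ n)⁻¹ * ∑ σ : Fin n → Bool, Real.exp (∑ i, f (fld (G i) σ)))) (pats n m) := by
  refine Integrable.of_bound (Measurable.aestronglyMeasurable ?_) (m * B) (ae_of_all _ fun G => ?_)
  · unfold fld; fun_prop
  · rw [Real.norm_eq_abs]
    exact abs_log_avg_le (by positivity) (card_cfg _) fun σ => abs_sum_f_le hB _

theorem abs_press_le (hB : ∀ x, |f x| ≤ B) (n m : ℕ) : |press f n m| ≤ m * B := by
  have := norm_integral_le_of_norm_le_const (μ := pats n m) (C := m * B)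
    (f := fun G => Real.log (((2 : ℝ) ^ n)⁻¹ * ∑ σ : Fin n → Bool, Real.exp (∑ i, f (fld (G i) σ))))
    (ae_of_all _ fun G => by
      rw [Real.norm_eq_abs]
      exact abs_log_avg_le (by positivity) (card_cfg _) fun σ => abs_sum_f_le hB _)
  simpa [press, Real.norm_eq_abs] using this

theorem press_succ (hfm : Measurable f) (hB : ∀ x, |f x| ≤ B) (n m : ℕ) :
    |press f n (m + 1) - press f n m| ≤ B := by
  set φ : ∀ j : ℕ, (Fin j → Fin n → ℝ) → ℝ := fun j G =>
    Real.log (((2 : ℝ) ^ n)⁻¹ * ∑ σ : Fin n → Bool, Real.exp (∑ i, f (fld (G i) σ)))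
  have hp : MeasurePreserving (fun (G : Fin (m + 1) → Fin n → ℝ) j i => G (Fin.castSucc j) i)
      (pats n (m + 1)) (pats n m) := mp_sub Function.injective_id (Fin.castSucc_injective m)
  have heq : press f n m = ∫ G, φ m (fun j i => G (Fin.castSucc j) i) ∂pats n (m + 1) := by
    rw [press, ← hp.map_eq, integral_map hp.measurable.aemeasurable]
    rw [hp.map_eq]
    exact (integrable_press hfm hB n m).aestronglyMeasurable
  have hi : Integrable (fun G => φ m fun j i => G (Fin.castSucc j) i) (pats n (m + 1)) :=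
    hp.integrable_comp_of_integrable (integrable_press hfm hB n m)
  rw [heq, press, ← integral_sub (integrable_press hfm hB n (m + 1)) hi, ← Real.norm_eq_abs]
  refine (norm_integral_le_of_norm_le_const (C := B) (ae_of_all _ fun G => ?_)).trans_eq (by simp)
  rw [Real.norm_eq_abs]
  set x : (Fin n → Bool) → ℝ := fun σ => ∑ i : Fin m, f (fld (G (Fin.castSucc i)) σ)
  set y : (Fin n → Bool) → ℝ := fun σ => f (fld (G (Fin.last m)) σ)
  set P := ((2 : ℝ) ^ n)⁻¹ * ∑ σ : Fin n → Bool, Real.exp (x σ) with hP
  have hP0 : 0 < P := by positivity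
  have hs : ((2 : ℝ) ^ n)⁻¹ * ∑ σ : Fin n → Bool, Real.exp (∑ i, f (fld (G i) σ))
      = ((2 : ℝ) ^ n)⁻¹ * ∑ σ : Fin n → Bool, Real.exp (x σ) * Real.exp (y σ) := by
    simp [Fin.sum_univ_castSucc, Real.exp_add, x, y]
  have h1 : P * Real.exp (-B) ≤ ((2 : ℝ) ^ n)⁻¹ * ∑ σ : Fin n → Bool, Real.exp (x σ) * Real.exp (y σ) := by
    rw [hP, mul_assoc, Finset.sum_mul]
    gcongr with σ
    exact (abs_le.1 (hB _)).1
  have h2 : ((2 : ℝ) ^ n)⁻¹ * ∑ σ : Fin n → Bool, Real.exp (x σ) * Real.exp (y σ) ≤ P * Real.exp B := by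
    rw [hP, mul_assoc, Finset.sum_mul]
    gcongr with σ
    exact (abs_le.1 (hB _)).2
  show |Real.log (((2 : ℝ) ^ n)⁻¹ * ∑ σ : Fin n → Bool, Real.exp (∑ i, f (fld (G i) σ))) - Real.log P| ≤ B
  rw [hs]
  have l1 := Real.log_le_log (mul_pos hP0 (Real.exp_pos _)) h1
  have l2 := Real.log_le_log (lt_of_lt_of_le (mul_pos hP0 (Real.exp_pos _)) h1) h2
  rw [Real.log_mul hP0.ne' (Real.exp_pos _).ne', Real.log_exp] at l1 l2
  exact abs_le.2 ⟨by linarith, by linarith⟩

theorem press_lip (hfm : Measurable f) (hB : ∀ x, |f x| ≤ B) (n : ℕ) (m m' : ℕ) :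
    |press f n m - press f n m'| ≤ B * |(m : ℝ) - m'| := by
  have h : ∀ d j, |press f n (j + d) - press f n j| ≤ B * d := by
    intro d
    induction d with
    | zero => intro j; simp
    | succ d ih =>
      intro j
      have := press_succ hfm hB n (j + d)
      refine (abs_sub_le _ (press f n (j + d)) _).trans ?_
      push_cast
      rw [show j + (d + 1) = j + d + 1 from rfl]
      linarith [ih j]
  rcases le_total m m' with hm | hm
  · obtain ⟨d, rfl⟩ := Nat.exists_eq_add_of_le hm
    rw [abs_sub_comm]; push_cast; simpa using h d m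
  · obtain ⟨d, rfl⟩ := Nat.exists_eq_add_of_le hm
    push_cast; simpa using h d m'

/-- Decoupled hybrid. -/
theorem hyb_base (hfm : Measurable f) (hB : ∀ x, |f x| ≤ B) (a b : ℕ) {M : ℕ}
    (k : Fin M → Option Bool) (hk : ∀ i, k i ≠ none) :
    hyb f a b k = press f a (Finset.univ.filter fun i => k i = some false).card
      + press f b (Finset.univ.filter fun i => k i = some true).card := by
  classical
  set F := Finset.univ.filter fun i => k i = some false
  set T := Finset.univ.filter fun i => k i = some true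
  set eF := F.orderEmbOfFin rfl
  set eT := T.orderEmbOfFin rfl
  have hF := mp_sub (n := a + b) (c := Fin.castAdd b) (Fin.castAdd_injective a b) (M := M) eF.injective
  have hT := mp_sub (n := a + b) (c := Fin.natAdd a) (Fin.natAdd_injective b a) (M := M) eT.injective
  set φ : ∀ n j : ℕ, (Fin j → Fin n → ℝ) → ℝ := fun n j G =>
    Real.log (((2 : ℝ) ^ n)⁻¹ * ∑ σ : Fin n → Bool, Real.exp (∑ i, f (fld (G i) σ)))
  have hval_eq : ∀ G, hval f a b k G = φ a F.card (fun j i => G (eF j) (Fin.castAdd b i))
      + φ b T.card (fun j i => G (eT j) (Fin.natAdd a i)) := fun G => by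
    have hsplit : ∀ (σ1 : Fin a → Bool) (σ2 : Fin b → Bool),
        ∑ i, f (∑ l, G i l * wv a b (k i) (Fin.append σ1 σ2) l)
          = ∑ j, f (fld (fun i => G (eF j) (Fin.castAdd b i)) σ1)
            + ∑ j, f (fld (fun i => G (eT j) (Fin.natAdd a i)) σ2) := fun σ1 σ2 => by
      have hu : (Finset.univ : Finset (Fin M)) = F ∪ T := by
        ext i; rcases h : k i with _ | _ | _ <;> simp_all [F, T]
      have hd : Disjoint F T := Finset.disjoint_filter.2 fun i _ h1 h2 => by simp [h1] at h2
      rw [hu, Finset.sum_union hd]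
      congr 1
      all_goals first
        | (conv_lhs => rw [← Finset.map_orderEmbOfFin_univ F rfl, Finset.sum_map])
        | (conv_lhs => rw [← Finset.map_orderEmbOfFin_univ T rfl, Finset.sum_map])
      all_goals refine Finset.sum_congr rfl fun j _ => ?_
      · have : k (eF j) = some false := (Finset.mem_filter.1 (F.orderEmbOfFin_mem rfl j)).2
        simp only [RelEmbedding.coe_toEmbedding, eF] at this ⊢
        rw [this, fld, Finset.sum_div]
        congr 1
        simp [wv, Fin.sum_univ_add, mul_div_assoc]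
      · have : k (eT j) = some true := (Finset.mem_filter.1 (T.orderEmbOfFin_mem rfl j)).2
        simp only [RelEmbedding.coe_toEmbedding, eT] at this ⊢
        rw [this, fld, Finset.sum_div]
        congr 1
        simp [wv, Fin.sum_univ_add, mul_div_assoc]
    simp only [hval, φ]
    rw [← (Fin.appendEquiv a b).sum_comp, Fintype.sum_prod_type]
    simp only [Fin.appendEquiv, Equiv.coe_fn_mk, hsplit, Real.exp_add, ← Finset.mul_sum,
      ← Finset.sum_mul]
    rw [pow_add, mul_inv, mul_mul_mul_comm, Real.log_mul]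
    · positivity
    · positivity
  have hi1 : Integrable (fun G => φ a F.card fun j i => G (eF j) (Fin.castAdd b i))
      (pats (a + b) M) := hF.integrable_comp_of_integrable (integrable_press hfm hB a F.card)
  have hi2 : Integrable (fun G => φ b T.card fun j i => G (eT j) (Fin.natAdd a i))
      (pats (a + b) M) := hT.integrable_comp_of_integrable (integrable_press hfm hB b T.card)
  rw [hyb]
  simp only [hval_eq]
  rw [integral_add hi1 hi2, press, press]
  congr 1
  · rw [← hF.map_eq, integral_map hF.measurable.aemeasurable]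
    rw [hF.map_eq]; exact (integrable_press hfm hB a _).aestronglyMeasurable
  · rw [← hT.map_eq, integral_map hT.measurable.aemeasurable]
    rw [hT.map_eq]; exact (integrable_press hfm hB b _).aestronglyMeasurable

/-- The one-pattern property of the potential. -/
def OnePat (f : ℝ → ℝ) : Prop :=
  ∀ (a b : ℕ), 0 < a → 0 < b → ∀ ν : (Fin (a + b) → Bool) → ℝ, (∀ s, 0 ≤ ν s) → ∑ s, ν s = 1 →
    (a : ℝ) / (a + b) * ∫ g, Real.log (∑ s, ν s * Real.exp (f (∑ i, g i * wv a b (some false) s i))) ∂gs (a + b)
      + (b : ℝ) / (a + b) * ∫ g, Real.log (∑ s, ν s * Real.exp (f (∑ i, g i * wv a b (some true) s i))) ∂gs (a + b)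
      ≤ ∫ g, Real.log (∑ s, ν s * Real.exp (f (∑ i, g i * wv a b none s i))) ∂gs (a + b)

theorem hyb_step (hf1 : OnePat f) (hfm : Measurable f) (hB : ∀ x, |f x| ≤ B) {a b : ℕ} (ha : 0 < a)
    (hb : 0 < b) {M : ℕ} (k : Fin (M + 1) → Option Bool) (r : Fin (M + 1)) (hr : k r = none) :
    (a : ℝ) / (a + b) * hyb f a b (Function.update k r (some false))
      + (b : ℝ) / (a + b) * hyb f a b (Function.update k r (some true)) ≤ hyb f a b k := by
  set n := a + b
  have hkr : k = Function.update k r none := by rw [← hr]; simp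
  have hsplit : ∀ o : Option Bool, hyb f a b (Function.update k r o)
      = ∫ G' : Fin M → Fin n → ℝ, ∫ x : Fin n → ℝ,
          hval f a b (Function.update k r o) (r.insertNth x G') ∂gs n ∂pats n M := fun o => by
    have h := (measurePreserving_piFinSuccAbove (fun _ : Fin (M + 1) => gs n) r).symm
    rw [hyb, pats, ← h.map_eq, integral_map_equiv]
    rw [integral_prod_symm]
    · rfl
    · have := integrable_hval hfm hB a b (Function.update k r o)
      rw [pats, ← h.map_eq, integrable_map_equiv] at this
      exact this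
  rw [show hyb f a b k = hyb f a b (Function.update k r none) from congrArg _ hkr, hsplit, hsplit,
    hsplit]
  clear hkr
  have hint : ∀ o : Option Bool, Integrable (fun G' : Fin M → Fin n → ℝ =>
      ∫ x : Fin n → ℝ, hval f a b (Function.update k r o) (r.insertNth x G') ∂gs n) (pats n M) := fun o => by
    have h := (measurePreserving_piFinSuccAbove (fun _ : Fin (M + 1) => gs n) r).symm
    have := integrable_hval hfm hB a b (Function.update k r o)
    rw [pats, ← h.map_eq, integrable_map_equiv] at this
    exact this.integral_prod_right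
  rw [← integral_const_mul, ← integral_const_mul,
    ← integral_add ((hint _).const_mul _) ((hint _).const_mul _)]
  refine integral_mono (((hint _).const_mul _).fun_add ((hint _).const_mul _)) (hint _) fun G' => ?_
  set x : (Fin n → Bool) → ℝ := fun σ =>
    ∑ j, f (∑ l, G' j l * wv a b (k (r.succAbove j)) σ l)
  set S := ((2 : ℝ) ^ n)⁻¹ * ∑ σ : Fin n → Bool, Real.exp (x σ)
  set ν : (Fin n → Bool) → ℝ := fun σ => ((2 : ℝ) ^ n)⁻¹ * Real.exp (x σ) / S
  have hS : 0 < S := by positivity
  have hν : ∀ σ, 0 ≤ ν σ := fun σ => by positivity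
  have hν1 : ∑ σ, ν σ = 1 := by
    rw [← Finset.sum_div, ← Finset.mul_sum]; exact div_self hS.ne'
  have hv : ∀ (o : Option Bool) (g : Fin n → ℝ), hval f a b (Function.update k r o) (r.insertNth g G')
      = Real.log S + Real.log (∑ σ, ν σ * Real.exp (f (∑ l, g l * wv a b o σ l))) := fun o g => by
    have hpos : 0 < ∑ σ, ν σ * Real.exp (f (∑ l, g l * wv a b o σ l)) :=
      Finset.sum_pos (fun σ _ => by positivity) Finset.univ_nonempty
    rw [← Real.log_mul hS.ne' hpos.ne', hval, Finset.mul_sum, Finset.mul_sum]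
    congr 1
    refine Finset.sum_congr rfl fun σ _ => ?_
    rw [Fin.sum_univ_succAbove _ r]
    simp only [Fin.insertNth_apply_same, Fin.insertNth_apply_succAbove, Function.update_self,
      Function.update_of_ne (Fin.succAbove_ne r _)]
    rw [Real.exp_add]
    simp only [ν, x]
    field_simp
    simp only [n]
    ring
  have hi : ∀ o : Option Bool, Integrable
      (fun g : Fin n → ℝ => Real.log (∑ σ, ν σ * Real.exp (f (∑ l, g l * wv a b o σ l)))) (gs n) := fun o => by
    refine Integrable.of_bound (Measurable.aestronglyMeasurable (by fun_prop)) B (ae_of_all _ fun g => ?_)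
    have hpos : 0 < ∑ σ, ν σ * Real.exp (f (∑ l, g l * wv a b o σ l)) :=
      Finset.sum_pos (fun σ _ => by positivity) Finset.univ_nonempty
    have h1 : Real.exp (-B) ≤ ∑ σ, ν σ * Real.exp (f (∑ l, g l * wv a b o σ l)) := by
      calc Real.exp (-B) = ∑ σ, ν σ * Real.exp (-B) := by rw [← Finset.sum_mul, hν1, one_mul]
        _ ≤ _ := Finset.sum_le_sum fun σ _ =>
          mul_le_mul_of_nonneg_left (Real.exp_le_exp.2 (abs_le.1 (hB _)).1) (hν σ)
    have h2 : ∑ σ, ν σ * Real.exp (f (∑ l, g l * wv a b o σ l)) ≤ Real.exp B := by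
      calc _ ≤ ∑ σ, ν σ * Real.exp B := Finset.sum_le_sum fun σ _ =>
            mul_le_mul_of_nonneg_left (Real.exp_le_exp.2 (abs_le.1 (hB _)).2) (hν σ)
        _ = _ := by rw [← Finset.sum_mul, hν1, one_mul]
    rw [Real.norm_eq_abs]
    exact abs_le.2 ⟨(Real.le_log_iff_exp_le hpos).2 h1, (Real.log_le_iff_le_exp hpos).2 h2⟩
  simp only [hv]
  rw [integral_add (integrable_const _) (hi _), integral_add (integrable_const _) (hi _),
    integral_add (integrable_const _) (hi _)]
  have hc : (a : ℝ) / (a + b) * Real.log S + (b : ℝ) / (a + b) * Real.log S = Real.log S := by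
    rw [← add_mul, ← add_div, div_self (by positivity), one_mul]
  simp only [integral_const, probReal_univ, one_smul]
  have := hf1 a b ha hb ν hν hν1
  nlinarith [hc, this]

/-- Repeated exchange gives a lower bound by the binomial mixture. -/
theorem hyb_lower (hf1 : OnePat f) (hfm : Measurable f) (hB : ∀ x, |f x| ≤ B) {a b : ℕ} (ha : 0 < a)
    (hb : 0 < b) {s : ℝ} (hs : 0 < s) (m m' : ℕ) :
    ∀ (j M : ℕ) (k : Fin M → Option Bool), (Finset.univ.filter fun i => k i = none).card = j →
      press f a m + press f b m'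
        - B * (((((Finset.univ.filter fun i => k i = some false).card : ℝ) + j * ((a : ℝ) / (a + b)) - m) ^ 2
            + j * ((a : ℝ) / (a + b)) * ((b : ℝ) / (a + b))) / s + s
            + |((Finset.univ.filter fun i => k i = some false).card : ℝ)
              + ((Finset.univ.filter fun i => k i = some true).card : ℝ) + j - m - m'|)
        ≤ hyb f a b k := by
  classical
  intro j
  induction j with
  | zero =>
    intro M k hk
    have hk' : ∀ i, k i ≠ none := fun i h => by
      have : i ∈ Finset.univ.filter fun i => k i = none := Finset.mem_filter.2 ⟨Finset.mem_univ _, h⟩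
      rw [Finset.card_eq_zero.1 hk] at this; simp at this
    rw [hyb_base hfm hB a b k hk']
    set x := (Finset.univ.filter fun i => k i = some false).card
    set y := (Finset.univ.filter fun i => k i = some true).card
    have hB0 : 0 ≤ B := (abs_nonneg _).trans (hB 0)
    have h1 := abs_le.1 (press_lip hfm hB a x m)
    have h2 := abs_le.1 (press_lip hfm hB b y m')
    have h3 : |(y : ℝ) - m'| ≤ |(x : ℝ) - m| + |(x : ℝ) + y - m - m'| := by
      calc |(y : ℝ) - m'| = |((x : ℝ) + y - m - m') - ((x : ℝ) - m)| := by ring_nf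
        _ ≤ _ := (abs_sub _ _).trans_eq (add_comm _ _)
    have h4 : 2 * |(x : ℝ) - m| ≤ ((x : ℝ) - m) ^ 2 / s + s := by
      rw [div_add' _ _ _ hs.ne', le_div_iff₀ hs]
      nlinarith [sq_nonneg (|(x : ℝ) - m| - s), sq_abs ((x : ℝ) - m)]
    simp only [Nat.cast_zero, zero_mul, add_zero]
    have h5 := mul_le_mul_of_nonneg_left (add_le_add h4 (le_refl |(x : ℝ) + y - m - m'|)) hB0
    have h6 := mul_le_mul_of_nonneg_left h3 hB0
    nlinarith [h1.1, h2.1]
  | succ j ih =>
    intro M k hk
    obtain ⟨r, hr⟩ : ∃ r, k r = none := by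
      have : (Finset.univ.filter fun i => k i = none).Nonempty := Finset.card_pos.1 (by omega)
      obtain ⟨r, hr⟩ := this
      exact ⟨r, (Finset.mem_filter.1 hr).2⟩
    obtain ⟨M, rfl⟩ : ∃ M', M = M' + 1 := ⟨M - 1, by have := r.isLt; omega⟩
    refine le_trans ?_ (hyb_step hf1 hfm hB ha hb k r hr)
    have hnone : ∀ c : Bool, (Finset.univ.filter fun i => Function.update k r (some c) i = none).card = j := by
      intro c
      have : (Finset.univ.filter fun i => Function.update k r (some c) i = none)
          = (Finset.univ.filter fun i => k i = none).erase r := by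
        ext i; by_cases h : i = r <;> simp [h]
      rw [this, Finset.card_erase_of_mem (by simp [hr]), hk]; omega
    have hsome : ∀ c c' : Bool, (Finset.univ.filter fun i => Function.update k r (some c) i = some c').card
        = (Finset.univ.filter fun i => k i = some c').card + if c = c' then 1 else 0 := by
      intro c c'
      by_cases hc : c = c'
      · subst hc
        have : (Finset.univ.filter fun i => Function.update k r (some c) i = some c)
            = insert r (Finset.univ.filter fun i => k i = some c) := by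
          ext i; by_cases h : i = r <;> simp [h]
        rw [this, Finset.card_insert_of_notMem (by simp [hr]), if_pos rfl]
      · have : (Finset.univ.filter fun i => Function.update k r (some c) i = some c')
            = (Finset.univ.filter fun i => k i = some c') := by
          ext i; by_cases h : i = r <;> simp [h, hr, hc]
        rw [this, if_neg hc, add_zero]
    have i1 := ih _ (Function.update k r (some false)) (hnone false)
    have i2 := ih _ (Function.update k r (some true)) (hnone true)
    simp only [hsome, Bool.false_eq_true, Bool.true_eq_false, if_true, if_false, add_zero,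
      Nat.cast_add, Nat.cast_one] at i1 i2
    set x := ((Finset.univ.filter fun i => k i = some false).card : ℝ)
    set y := ((Finset.univ.filter fun i => k i = some true).card : ℝ)
    push_cast
    set c₁ := (a : ℝ) / (a + b)
    set c₂ := (b : ℝ) / (a + b)
    have hc : c₂ = 1 - c₁ := by simp only [c₁, c₂]; field_simp; ring
    have hc1 : 0 ≤ c₁ := by positivity
    have hc2 : 0 ≤ c₂ := by positivity
    have e1 := mul_le_mul_of_nonneg_left i1 hc1
    have e2 := mul_le_mul_of_nonneg_left i2 hc2
    refine le_trans (le_of_eq ?_) (add_le_add e1 e2)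
    rw [show x + 1 + y + (j : ℝ) - m - m' = x + y + ((j : ℝ) + 1) - m - m' by ring,
      show x + (y + 1) + (j : ℝ) - m - m' = x + y + ((j : ℝ) + 1) - m - m' by ring, hc]
    field_simp
    ring

end Vale.Agent.P157
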