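import Vale.Agent.P157.Hybrid

/-!
Existence of the limiting free energy of a class of Ising perceptrons at every pattern density.
-/

open MeasureTheory ProbabilityTheory Filter Topology

namespace Vale.Agent.P157

theorem sum_sq_wv {a b : ℕ} (ha : 0 < a) (hb : 0 < b) (m : ℕ) (t : Fin m → ℝ)
    (s : Fin m → Fin (a + b) → Bool) :
    ∑ i, (∑ l, t l * wv a b none (s l) i) ^ 2
      = (a : ℝ) / (a + b) * ∑ i, (∑ l, t l * wv a b (some false) (s l) i) ^ 2
        + (b : ℝ) / (a + b) * ∑ i, (∑ l, t l * wv a b (some true) (s l) i) ^ 2 := by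
  have ha' : (0 : ℝ) < a := by exact_mod_cast ha
  have hb' : (0 : ℝ) < b := by exact_mod_cast hb
  have hab : (0 : ℝ) < a + b := by positivity
  have e : ∀ (c : ℝ), 0 < c → ∀ u : Fin m → ℝ,
      (∑ l, t l * (u l / √c)) ^ 2 = (∑ l, t l * u l) ^ 2 / c := fun c hc u => by
    simp only [mul_div_assoc']
    rw [← Finset.sum_div, div_pow, Real.sq_sqrt hc.le]
  simp only [wv, Nat.cast_add, Fin.sum_univ_add, Fin.append_left, Fin.append_right, Pi.zero_apply,
    mul_zero, Finset.sum_const_zero, ne_eq, OfNat.ofNat_ne_zero, not_false_eq_true, zero_pow,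
    zero_add, add_zero, e _ ha', e _ hb', e _ hab, ← Finset.sum_div]
  field_simp

theorem onePat_of_cosT (ρ : Measure ℝ) [IsFiniteMeasure ρ] (hρ : ρ.real Set.univ < 1) (κ : ℝ)
    {f : ℝ → ℝ} (hf : ∀ x, f x = κ + Real.log (1 - cosT ρ x)) : OnePat f := by
  intro a b ha hb ν hν hν1
  refine one_pattern ρ hρ κ hf hν hν1 (by positivity) (by positivity) ?_
    (fun m t s => sum_sq_wv ha hb m t s)
  rw [← add_div, div_self]
  positivity

variable {f : ℝ → ℝ} {B α : ℝ}

theorem superadd_le (hf1 : OnePat f) (hfm : Measurable f) (hB : ∀ x, |f x| ≤ B) (hα : 0 < α)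
    {a b : ℕ} (ha : 0 < a) (hb : 0 < b) :
    press f a ⌊α * a⌋₊ + press f b ⌊α * b⌋₊ - B * ((α + 5) * √(min a b : ℝ))
      ≤ press f (a + b) ⌊α * (a + b : ℕ)⌋₊ := by
  have hB0 : 0 ≤ B := (abs_nonneg _).trans (hB 0)
  set M := ⌊α * (a + b : ℕ)⌋₊
  set k : Fin M → Option Bool := fun _ => none
  have hfull : hyb f a b k = press f (a + b) M := by
    simp only [hyb, press, hval, k, wv, fld, mul_div_assoc', ← Finset.sum_div]
  have hs : 1 ≤ √(min a b : ℝ) :=
    Real.one_le_sqrt.2 (le_min (by exact_mod_cast ha) (by exact_mod_cast hb))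
  have h := hyb_lower hf1 hfm hB ha hb (s := √(min a b : ℝ)) (by linarith) ⌊α * a⌋₊ ⌊α * b⌋₊ M M k
    (by simp [k])
  rw [hfull] at h
  simp only [k, reduceCtorEq, Finset.filter_false, Finset.card_empty, Nat.cast_zero, zero_add] at h
  refine le_trans ?_ h
  have ha' : (0 : ℝ) < a := by exact_mod_cast ha
  have hb' : (0 : ℝ) < b := by exact_mod_cast hb
  have hαa := Nat.floor_le (show 0 ≤ α * (a : ℝ) by positivity)
  have hαa' := Nat.lt_floor_add_one (α * (a : ℝ))
  have hαb := Nat.floor_le (show 0 ≤ α * (b : ℝ) by positivity)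
  have hαb' := Nat.lt_floor_add_one (α * (b : ℝ))
  have hM := Nat.floor_le (show 0 ≤ α * ((a + b : ℕ) : ℝ) by positivity)
  have hM' := Nat.lt_floor_add_one (α * ((a + b : ℕ) : ℝ))
  have hMdef : (M : ℝ) = (⌊α * ((a + b : ℕ) : ℝ)⌋₊ : ℝ) := rfl
  rw [← hMdef] at hM hM'
  push_cast at hM hM'
  set c := (a : ℝ) / (a + b)
  have hc0 : 0 ≤ c := by positivity
  have hc1 : c ≤ 1 := div_le_one_of_le₀ (by linarith) (by positivity)
  have hMc : (M : ℝ) * c ≤ α * a := by
    calc (M : ℝ) * c ≤ α * (a + b) * c := mul_le_mul_of_nonneg_right hM hc0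
      _ = α * a := by simp only [c]; field_simp
  have hMc' : α * a - 1 ≤ (M : ℝ) * c := by
    have h1 : α * (a + b) * c = α * a := by simp only [c]; field_simp
    nlinarith [mul_le_mul_of_nonneg_right hM'.le hc0]
  have hMd : (M : ℝ) * ((b : ℝ) / (a + b)) ≤ α * b := by
    calc (M : ℝ) * ((b : ℝ) / (a + b)) ≤ α * (a + b) * ((b : ℝ) / (a + b)) :=
          mul_le_mul_of_nonneg_right hM (by positivity)
      _ = α * b := by field_simp
  have hd0 : 0 ≤ (b : ℝ) / (a + b) := by positivity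
  have hd1 : (b : ℝ) / (a + b) ≤ 1 := div_le_one_of_le₀ (by linarith) (by positivity)
  have hsq : ((M : ℝ) * c - ⌊α * a⌋₊) ^ 2 ≤ 1 := by
    nlinarith
  have hmix : (M : ℝ) * c * ((b : ℝ) / (a + b)) ≤ α * min (a : ℝ) b := by
    rcases min_choice (a : ℝ) b with h' | h' <;> rw [h']
    · exact (mul_le_of_le_one_right (by positivity) hd1).trans hMc
    · calc (M : ℝ) * c * ((b : ℝ) / (a + b)) = (M : ℝ) * ((b : ℝ) / (a + b)) * c := by ring
        _ ≤ _ := (mul_le_of_le_one_right (by positivity) hc1).trans hMd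
  have hD : |(M : ℝ) - ⌊α * a⌋₊ - ⌊α * b⌋₊| ≤ 2 := abs_le.2 ⟨by linarith, by linarith⟩
  set S := √(min a b : ℝ)
  have hS2 : S ^ 2 = min (a : ℝ) b := Real.sq_sqrt (by positivity)
  have hdiv : (((M : ℝ) * c - ⌊α * a⌋₊) ^ 2 + (M : ℝ) * c * ((b : ℝ) / (a + b))) / S ≤ 1 + α * S := by
    rw [div_le_iff₀ (by linarith)]
    nlinarith
  have hin : (((M : ℝ) * c - ⌊α * a⌋₊) ^ 2 + (M : ℝ) * c * ((b : ℝ) / (a + b))) / S + S
      + |(M : ℝ) - ⌊α * a⌋₊ - ⌊α * b⌋₊| ≤ (α + 5) * S := by nlinarith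
  linarith [mul_le_mul_of_nonneg_left hin hB0]

theorem sqrt_gain (a b : ℝ) (ha : 0 ≤ a) (hb : 0 ≤ b) :
    √(min a b) / 2 ≤ √a + √b - √(a + b) := by
  wlog hab : a ≤ b generalizing a b
  · have := this b a hb ha (le_of_not_ge hab)
    rw [min_comm, add_comm a b]; linarith
  rw [min_eq_left hab]
  have hsa := Real.sq_sqrt ha
  have hsb := Real.sq_sqrt hb
  have h1 := Real.sqrt_le_sqrt hab
  have : √(a + b) ≤ √a / 2 + √b := by
    rw [Real.sqrt_le_left (by positivity)]
    nlinarith [mul_le_mul_of_nonneg_left h1 (Real.sqrt_nonneg a)]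
  linarith

/-- The free energy has a limit at every pattern density. -/
theorem tendsto_press (hf1 : OnePat f) (hfm : Measurable f) (hB : ∀ x, |f x| ≤ B) (hα : 0 < α) :
    ∃ L, Tendsto (fun N : ℕ => press f N ⌊α * N⌋₊ / N) atTop (𝓝 L) := by
  have hB0 : 0 ≤ B := (abs_nonneg _).trans (hB 0)
  set K := 2 * B * (α + 5)
  have hK : 0 ≤ K := by positivity
  set u : ℕ → ℝ := fun n => K * √(n : ℝ) - press f n ⌊α * n⌋₊
  have hu0 : u 0 = 0 := by
    have := abs_press_le hB 0 ⌊α * (0 : ℕ)⌋₊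
    simp at this
    simp [u, this]
  have hsub : Subadditive u := by
    intro a b
    rcases Nat.eq_zero_or_pos a with rfl | ha
    · simp [hu0]
    rcases Nat.eq_zero_or_pos b with rfl | hb
    · simp [hu0]
    have h1 := superadd_le hf1 hfm hB hα ha hb
    have h2 := mul_le_mul_of_nonneg_left (sqrt_gain (a : ℝ) b (Nat.cast_nonneg a) (Nat.cast_nonneg b)) hK
    simp only [u, Nat.cast_add] at h1 h2 ⊢
    simp only [K] at h2 ⊢
    linarith
  have hbdd : BddBelow (Set.range fun n => u n / n) := by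
    refine ⟨-(α * B), ?_⟩
    rintro _ ⟨n, rfl⟩
    rcases Nat.eq_zero_or_pos n with rfl | hn
    · simp; positivity
    have hn' : (0 : ℝ) < n := by exact_mod_cast hn
    simp only [u]
    rw [le_div_iff₀ hn']
    have h1 := (abs_le.1 (abs_press_le hB n ⌊α * n⌋₊)).2
    have h2 := mul_le_mul_of_nonneg_right (Nat.floor_le (show 0 ≤ α * (n : ℝ) by positivity)) hB0
    have h3 : 0 ≤ K * √(n : ℝ) := by positivity
    nlinarith
  have hl := hsub.tendsto_lim hbdd
  have hK0 : Tendsto (fun n : ℕ => K * √(n : ℝ) / n) atTop (𝓝 0) := by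
    have h1 : Tendsto (fun n : ℕ => (√(n : ℝ))⁻¹) atTop (𝓝 0) :=
      tendsto_inv_atTop_zero.comp (Real.tendsto_sqrt_atTop.comp tendsto_natCast_atTop_atTop)
    simpa [mul_div_assoc, Real.sqrt_div_self] using h1.const_mul K
  refine ⟨0 - hsub.lim, (hK0.sub hl).congr fun n => ?_⟩
  simp only [u]; ring

theorem cosT_pot_bound (ρ : Measure ℝ) [IsFiniteMeasure ρ] (hρ : ρ.real Set.univ < 1) (x : ℝ) :
    |Real.log (1 - cosT ρ x)| ≤ -Real.log (1 - ρ.real Set.univ) := by
  obtain ⟨h1, h2⟩ := abs_le.1 (abs_cosT_le ρ x)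
  set c := ρ.real Set.univ
  have hc : 0 ≤ c := measureReal_nonneg
  refine abs_le.2 ⟨?_, ?_⟩
  · rw [neg_neg]; exact Real.log_le_log (by linarith) (by linarith)
  · rw [← Real.log_inv]
    refine Real.log_le_log (by linarith) ?_
    rw [inv_eq_one_div, le_div_iff₀ (by linarith)]
    nlinarith

end Vale.Agent.P157
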