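import Mathlib

/-!
Comparison of one pattern on a system with one pattern on each of two subsystems, for weights
`e^f = const * (1 - φ)` with `φ` positive definite of total mass less than one.
-/

open MeasureTheory ProbabilityTheory Filter Topology
open scoped Real

namespace Vale.Agent.P157

/-- The spin of a Boolean. -/
def sg (b : Bool) : ℝ := if b then 1 else -1

/-- Standard Gaussian vector. -/
noncomputable def gs (n : ℕ) : Measure (Fin n → ℝ) := Measure.pi fun _ => gaussianReal 0 1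

/-- Cosine transform. -/
noncomputable def cosT (ρ : Measure ℝ) (x : ℝ) : ℝ := ∫ t, Real.cos (t * x) ∂ρ

/-- Symmetrisation of a measure. -/
noncomputable def symM (ρ : Measure ℝ) : Measure ℝ :=
  (2 : NNReal)⁻¹ • (ρ + ρ.map fun t => -t)

instance symM_finite (ρ : Measure ℝ) [IsFiniteMeasure ρ] : IsFiniteMeasure (symM ρ) := by
  unfold symM; infer_instance

theorem cosT_eq (ρ : Measure ℝ) [IsFiniteMeasure ρ] (x : ℝ) :
    (cosT ρ x : ℂ) = ∫ t, Complex.exp (((t * x : ℝ) : ℂ) * Complex.I) ∂symM ρ := by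
  have hc : Continuous fun t : ℝ => Complex.exp (((t * x : ℝ) : ℂ) * Complex.I) := by fun_prop
  have hi : ∀ m : Measure ℝ, IsFiniteMeasure m →
      Integrable (fun t : ℝ => Complex.exp (((t * x : ℝ) : ℂ) * Complex.I)) m := fun m _ =>
    Integrable.of_bound hc.aestronglyMeasurable 1 (ae_of_all _ fun t => by
      rw [Complex.norm_exp_ofReal_mul_I])
  have hi' : Integrable (fun t : ℝ => Complex.exp (((-t * x : ℝ) : ℂ) * Complex.I)) ρ :=
    Integrable.of_bound (by fun_prop) 1 (ae_of_all _ fun t => by rw [Complex.norm_exp_ofReal_mul_I])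
  rw [symM, integral_smul_nnreal_measure,
    integral_add_measure (hi _ inferInstance) (hi _ inferInstance),
    integral_map (by fun_prop) hc.aestronglyMeasurable, ← integral_add (hi _ inferInstance) hi',
    cosT, ← integral_complex_ofReal, NNReal.smul_def, ← integral_smul]
  congr 1
  ext t
  simp only [Complex.ofReal_cos, Complex.cos, Complex.real_smul, neg_mul, Complex.ofReal_neg]
  push_cast
  ring

theorem abs_cosT_le (ρ : Measure ℝ) [IsFiniteMeasure ρ] (x : ℝ) : |cosT ρ x| ≤ ρ.real Set.univ := by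
  have := norm_integral_le_of_norm_le_const (μ := ρ) (C := 1)
    (f := fun t => Real.cos (t * x)) (ae_of_all _ fun t => by
      simpa [Real.norm_eq_abs] using Real.abs_cos_le_one (t * x))
  simpa [cosT, Real.norm_eq_abs] using this

theorem continuous_cosT (ρ : Measure ℝ) [IsFiniteMeasure ρ] : Continuous (cosT ρ) :=
  continuous_of_dominated (fun x => by fun_prop)
    (fun x => ae_of_all _ fun t => by simpa [Real.norm_eq_abs] using Real.abs_cos_le_one (t * x))
    (integrable_const (1 : ℝ)) (ae_of_all _ fun t => by fun_prop)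

theorem charFun_gs {n : ℕ} (w : Fin n → ℝ) :
    ∫ g, Complex.exp (((∑ i, g i * w i : ℝ) : ℂ) * Complex.I) ∂gs n
      = ((Real.exp (-(∑ i, w i ^ 2) / 2) : ℝ) : ℂ) := by
  have h1 : ∀ g : Fin n → ℝ, Complex.exp (((∑ i, g i * w i : ℝ) : ℂ) * Complex.I)
      = ∏ i, Complex.exp ((w i : ℂ) * (g i : ℂ) * Complex.I) := fun g => by
    rw [← Complex.exp_sum]; push_cast; rw [Finset.sum_mul]
    congr 1; refine Finset.sum_congr rfl fun i _ => ?_; ring
  simp only [h1, gs]
  rw [integral_fintype_prod_eq_prod (f := fun i (x : ℝ) =>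
    Complex.exp ((w i : ℂ) * (x : ℂ) * Complex.I))]
  simp_rw [← charFun_apply_real, charFun_gaussianReal]
  rw [← Complex.exp_sum, Complex.ofReal_exp]
  congr 1
  push_cast
  rw [neg_div, Finset.sum_div, ← Finset.sum_neg_distrib]
  refine Finset.sum_congr rfl fun i _ => ?_
  ring

/-- Gaussian average of a product of cosine transforms. -/
theorem expect_prod {n m : ℕ} (ρ : Measure ℝ) [IsFiniteMeasure ρ] (W : Fin m → Fin n → ℝ) :
    ∫ g, ∏ l, cosT ρ (∑ i, g i * W l i) ∂gs n
      = ∫ t, Real.exp (-(∑ i, (∑ l, t l * W l i) ^ 2) / 2) ∂Measure.pi (fun _ : Fin m => symM ρ) := by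
  have : IsProbabilityMeasure (gs n) := by unfold gs; infer_instance
  apply Complex.ofReal_injective
  rw [← integral_complex_ofReal, ← integral_complex_ofReal]
  have h1 : ∀ g : Fin n → ℝ, ((∏ l, cosT ρ (∑ i, g i * W l i) : ℝ) : ℂ)
      = ∫ t, Complex.exp (((∑ i, g i * (∑ l, t l * W l i) : ℝ) : ℂ) * Complex.I)
          ∂Measure.pi (fun _ : Fin m => symM ρ) := fun g => by
    push_cast
    simp only [cosT_eq]
    rw [← integral_fintype_prod_eq_prod (f := fun l (t : ℝ) =>
      Complex.exp (((t * ∑ i, g i * W l i : ℝ) : ℂ) * Complex.I))]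
    congr 1; ext t
    rw [← Complex.exp_sum]
    congr 1
    push_cast
    rw [← Finset.sum_mul]
    congr 1
    simp only [Finset.mul_sum]
    rw [Finset.sum_comm]
    exact Finset.sum_congr rfl fun i _ => Finset.sum_congr rfl fun l _ => by ring
  simp only [h1]
  rw [integral_integral_swap]
  · congr 1; ext t
    exact charFun_gs _
  · exact Integrable.of_bound (by fun_prop) 1
      (ae_of_all _ fun z => by rw [Function.uncurry, Complex.norm_exp_ofReal_mul_I])

/-- Weighted average of the cosine transforms. -/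
noncomputable def avgT {n : ℕ} {S : Type*} [Fintype S] (ρ : Measure ℝ) (ν : S → ℝ)
    (w : S → Fin n → ℝ) (g : Fin n → ℝ) : ℝ := ∑ s, ν s * cosT ρ (∑ i, g i * w s i)

section Split

variable {n : ℕ} {S : Type*} [Fintype S] {c₁ c₂ : ℝ} {w w₁ w₂ : S → Fin n → ℝ}

/-- Moments of the average are convex in the covariance. -/
theorem moment_le (ρ : Measure ℝ) [IsFiniteMeasure ρ] {ν : S → ℝ} (hν : ∀ s, 0 ≤ ν s)
    (h1 : 0 ≤ c₁) (h2 : 0 ≤ c₂) (hc : c₁ + c₂ = 1)
    (hw : ∀ (m : ℕ) (t : Fin m → ℝ) (s : Fin m → S),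
      ∑ i, (∑ l, t l * w (s l) i) ^ 2
        = c₁ * ∑ i, (∑ l, t l * w₁ (s l) i) ^ 2 + c₂ * ∑ i, (∑ l, t l * w₂ (s l) i) ^ 2)
    (m : ℕ) :
    ∫ g, avgT ρ ν w g ^ m ∂gs n
      ≤ c₁ * ∫ g, avgT ρ ν w₁ g ^ m ∂gs n + c₂ * ∫ g, avgT ρ ν w₂ g ^ m ∂gs n := by
  classical
  have : IsProbabilityMeasure (gs n) := by unfold gs; infer_instance
  have hC := continuous_cosT ρ
  have key : ∀ v : S → Fin n → ℝ, ∫ g, avgT ρ ν v g ^ m ∂gs n
      = ∑ s : Fin m → S, (∏ l, ν (s l)) *
        ∫ t, Real.exp (-(∑ i, (∑ l, t l * v (s l) i) ^ 2) / 2)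
          ∂Measure.pi (fun _ : Fin m => symM ρ) := fun v => by
    simp only [avgT]
    conv_lhs => simp only [Fintype.sum_pow, Finset.prod_mul_distrib]
    rw [integral_finsetSum]
    · refine Finset.sum_congr rfl fun s _ => ?_
      rw [integral_const_mul, expect_prod]
    · intro s _
      refine (Integrable.of_bound (continuous_finsetProd _ fun x _ => hC.comp (by fun_prop)).aestronglyMeasurable
        (ρ.real Set.univ ^ m) (ae_of_all _ fun g => ?_)).const_mul _
      rw [Real.norm_eq_abs, Finset.abs_prod]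
      refine (Finset.prod_le_prod (fun l _ => abs_nonneg _) fun l _ => abs_cosT_le ρ _).trans_eq ?_
      simp
  simp only [key, Finset.mul_sum, ← Finset.sum_add_distrib]
  refine Finset.sum_le_sum fun s _ => ?_
  rw [mul_left_comm c₁, mul_left_comm c₂, ← mul_add]
  refine mul_le_mul_of_nonneg_left ?_ (Finset.prod_nonneg fun l _ => hν _)
  rw [← integral_const_mul c₁, ← integral_const_mul c₂]
  have hi : ∀ v : S → Fin n → ℝ, Integrable
      (fun t : Fin m → ℝ => Real.exp (-(∑ i, (∑ l, t l * v (s l) i) ^ 2) / 2))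
      (Measure.pi (fun _ : Fin m => symM ρ)) := fun v =>
    Integrable.of_bound (Continuous.aestronglyMeasurable (by fun_prop)) 1 (ae_of_all _ fun t => by
      rw [Real.norm_eq_abs, Real.abs_exp, Real.exp_le_one_iff]
      have := Finset.sum_nonneg (s := (Finset.univ : Finset (Fin n)))
        (fun i _ => sq_nonneg (∑ l, t l * v (s l) i))
      linarith)
  rw [← integral_add ((hi w₁).const_mul _) ((hi w₂).const_mul _)]
  refine integral_mono (hi w) (((hi w₁).const_mul _).fun_add ((hi w₂).const_mul _)) fun t => ?_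
  have := convexOn_exp.2 (Set.mem_univ (-(∑ i, (∑ l, t l * w₁ (s l) i) ^ 2) / 2))
    (Set.mem_univ (-(∑ i, (∑ l, t l * w₂ (s l) i) ^ 2) / 2)) h1 h2 hc
  simp only [smul_eq_mul] at this
  refine le_of_eq_of_le ?_ this
  rw [hw]; congr 1; ring

/-- **One-pattern comparison.** -/
theorem one_pattern (ρ : Measure ℝ) [IsFiniteMeasure ρ] (hρ : ρ.real Set.univ < 1) (κ : ℝ)
    {f : ℝ → ℝ} (hf : ∀ x, f x = κ + Real.log (1 - cosT ρ x)) {ν : S → ℝ} (hν : ∀ s, 0 ≤ ν s)
    (hν1 : ∑ s, ν s = 1) (h1 : 0 ≤ c₁) (h2 : 0 ≤ c₂) (hc : c₁ + c₂ = 1)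
    (hw : ∀ (m : ℕ) (t : Fin m → ℝ) (s : Fin m → S),
      ∑ i, (∑ l, t l * w (s l) i) ^ 2
        = c₁ * ∑ i, (∑ l, t l * w₁ (s l) i) ^ 2 + c₂ * ∑ i, (∑ l, t l * w₂ (s l) i) ^ 2) :
    c₁ * ∫ g, Real.log (∑ s, ν s * Real.exp (f (∑ i, g i * w₁ s i))) ∂gs n
      + c₂ * ∫ g, Real.log (∑ s, ν s * Real.exp (f (∑ i, g i * w₂ s i))) ∂gs n
      ≤ ∫ g, Real.log (∑ s, ν s * Real.exp (f (∑ i, g i * w s i))) ∂gs n := by
  have : IsProbabilityMeasure (gs n) := by unfold gs; infer_instance
  set c := ρ.real Set.univ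
  have hc0 : 0 ≤ c := measureReal_nonneg
  have hC := continuous_cosT ρ
  have hX : ∀ (v : S → Fin n → ℝ) (g), |avgT ρ ν v g| ≤ c := fun v g => by
    refine (Finset.abs_sum_le_sum_abs _ _).trans ?_
    calc ∑ s, |ν s * cosT ρ (∑ i, g i * v s i)| ≤ ∑ s, ν s * c := Finset.sum_le_sum fun s _ => by
          rw [abs_mul, abs_of_nonneg (hν s)]; exact mul_le_mul_of_nonneg_left (abs_cosT_le ρ _) (hν s)
      _ = c := by rw [← Finset.sum_mul, hν1, one_mul]
  have hcont : ∀ v : S → Fin n → ℝ, Continuous fun g : Fin n → ℝ => avgT ρ ν v g := fun v => by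
    unfold avgT; fun_prop
  have hlog : ∀ (v : S → Fin n → ℝ) (g : Fin n → ℝ),
      Real.log (∑ s, ν s * Real.exp (f (∑ i, g i * v s i))) = κ + Real.log (1 - avgT ρ ν v g) := fun v g => by
    have h : ∑ s, ν s * Real.exp (f (∑ i, g i * v s i)) = Real.exp κ * (1 - avgT ρ ν v g) := by
      rw [avgT, mul_sub, mul_one, Finset.mul_sum]
      calc _ = ∑ s, (Real.exp κ * ν s - Real.exp κ * (ν s * cosT ρ (∑ i, g i * v s i))) :=
            Finset.sum_congr rfl fun s _ => by
              rw [hf, Real.exp_add, Real.exp_log (by linarith [abs_le.1 (abs_cosT_le ρ (∑ i, g i * v s i))])]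
              ring
        _ = _ := by rw [Finset.sum_sub_distrib, ← Finset.mul_sum, hν1, mul_one]
    rw [h, Real.log_mul (Real.exp_pos _).ne' (by linarith [abs_le.1 (hX v g)]), Real.log_exp]
  -- partial sums of the logarithmic series
  set P : (S → Fin n → ℝ) → ℕ → (Fin n → ℝ) → ℝ := fun v N g =>
    ∑ i ∈ Finset.range N, avgT ρ ν v g ^ (i + 1) / (i + 1)
  have hPi : ∀ v (i : ℕ), Integrable (fun g => avgT ρ ν v g ^ (i + 1) / ((i : ℝ) + 1)) (gs n) := fun v i =>
    (Integrable.of_bound ((hcont v).pow _).aestronglyMeasurable (c ^ (i + 1))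
      (ae_of_all _ fun g => by
        simp only [Real.norm_eq_abs, Pi.pow_apply, abs_pow]; exact pow_le_pow_left₀ (abs_nonneg _) (hX v g) _)).div_const _
  have hPlim : ∀ v, Tendsto (fun N => ∫ g, P v N g ∂gs n) atTop
      (𝓝 (∫ g, -Real.log (1 - avgT ρ ν v g) ∂gs n)) := fun v => by
    refine tendsto_integral_of_dominated_convergence (fun _ => -Real.log (1 - c))
      (fun N => (continuous_finsetSum _ fun i _ => ((hcont v).pow _).div_const _).aestronglyMeasurable)
      (integrable_const _) (fun N => ae_of_all _ fun g => ?_)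
      (ae_of_all _ fun g => (Real.hasSum_pow_div_log_of_abs_lt_one
        (lt_of_le_of_lt (hX v g) hρ)).tendsto_sum_nat)
    rw [Real.norm_eq_abs]
    refine (Finset.abs_sum_le_sum_abs _ _).trans (le_trans (Finset.sum_le_sum fun i _ => ?_)
      (sum_le_hasSum (Finset.range N) (fun i _ => by positivity)
        (Real.hasSum_pow_div_log_of_abs_lt_one (x := c) (by rwa [abs_of_nonneg hc0]))))
    rw [abs_div, abs_pow, abs_of_pos (show (0 : ℝ) < i + 1 by positivity)]
    gcongr
    exact hX v g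
  have hle : ∀ N, ∫ g, P w N g ∂gs n ≤ c₁ * ∫ g, P w₁ N g ∂gs n + c₂ * ∫ g, P w₂ N g ∂gs n := fun N => by
    simp only [P]
    rw [integral_finsetSum _ fun i _ => hPi w i, integral_finsetSum _ fun i _ => hPi w₁ i,
      integral_finsetSum _ fun i _ => hPi w₂ i, Finset.mul_sum, Finset.mul_sum,
      ← Finset.sum_add_distrib]
    refine Finset.sum_le_sum fun i _ => ?_
    simp only [integral_div]
    rw [mul_div_assoc', mul_div_assoc', ← add_div]
    exact div_le_div_of_nonneg_right (moment_le ρ hν h1 h2 hc hw (i + 1)) (by positivity)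
  have hlimle := le_of_tendsto_of_tendsto' (hPlim w)
    (((hPlim w₁).const_mul c₁).add ((hPlim w₂).const_mul c₂)) hle
  have hint : ∀ v, Integrable (fun g => Real.log (1 - avgT ρ ν v g)) (gs n) := fun v => by
    refine Integrable.of_bound ((measurable_const.sub (hcont v).measurable).log.aestronglyMeasurable)
      (max (-Real.log (1 - c)) (Real.log (1 + c))) (ae_of_all _ fun g => ?_)
    obtain ⟨ha, hb⟩ := abs_le.1 (hX v g)
    rw [Real.norm_eq_abs, abs_le]
    constructor
    · have := Real.log_le_log (by linarith) (show 1 - c ≤ 1 - avgT ρ ν v g by linarith)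
      linarith [le_max_left (-Real.log (1 - c)) (Real.log (1 + c))]
    · have := Real.log_le_log (show 0 < 1 - avgT ρ ν v g by linarith)
        (show 1 - avgT ρ ν v g ≤ 1 + c by linarith)
      linarith [le_max_right (-Real.log (1 - c)) (Real.log (1 + c))]
  have hval : ∀ v, ∫ g, Real.log (∑ s, ν s * Real.exp (f (∑ i, g i * v s i))) ∂gs n
      = κ - ∫ g, -Real.log (1 - avgT ρ ν v g) ∂gs n := fun v => by
    simp only [hlog]
    rw [integral_add (integrable_const _) (hint v), integral_neg]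
    simp
  rw [hval, hval, hval]
  have : c₁ * κ + c₂ * κ = κ := by rw [← add_mul, hc, one_mul]
  linarith

end Split

end Vale.Agent.P157
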